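import Vale.Agent.P330.H247.SizePT
import Vale.Agent.P330.H633.MPPTI
import Vale.Agent.P330.H838.QL
import Vale.Agent.P330.H675.JNum

/-!
# Sizes of the outer network of an instance of End-of-Line

For an instance `I` and constants `C1`, `c0`, `D` (`D` = number of labels):

* `kI I` (743): logarithm of the number of slots,
* `lqI`: level of the small field, `q = 2 ^ eF lqI`,
* `dI`: the degrees of the eight components of `J`,
* `kapI`: the dimension of `J`,
* `leI`: level of the big field; `kapI < eF leI` and `q ^ 9 * D < eF leI`.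
-/

namespace Vale.Agent.P330.H247

open Function
open Vale.Agent.Lib.PolyTime
open Vale.Agent.P330.H933 (eF Fl LPar)
open Vale.Agent.P330.H604 (GPar cG cG_le)
open Vale.Agent.P330.H675 (JJ Mon DegOK JPar)
open Vale.Agent.P330.H743 (kI aI two_pow_kI_lt)
open Vale.Agent.P330.H838 (QLog QLin len lg)

/-! ### The cardinality of `J` -/

theorem card_Mon (d : ℕ) : Fintype.card (Mon d) = dimH d := by
  classical
  let e : Mon d ≃ (Σ i : Fin (d + 1), Fin (d - i.1 + 1)) :=
    { toFun := fun m => ⟨⟨m.1 0, by have := m.2; omega⟩, ⟨m.1 1, by have := m.2; simp only; omega⟩⟩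
      invFun := fun s => ⟨![s.1.1, s.2.1, d - s.1.1 - s.2.1], by
        have h1 := s.1.2
        have h2 := s.2.2
        simp only [Matrix.cons_val_zero, Matrix.cons_val_one, Matrix.cons_val]
        omega⟩
      left_inv := fun m => by
        apply Subtype.ext
        funext i
        have := m.2
        fin_cases i
        · rfl
        · rfl
        · simp only [Fin.reduceFinMk, Matrix.cons_val]
          omega
      right_inv := fun s => by
        obtain ⟨⟨i, hi⟩, ⟨j, hj⟩⟩ := s
        rfl }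
  rw [Fintype.card_congr e, Fintype.card_sigma]
  simp only [Fintype.card_fin]
  rw [Fin.sum_univ_eq_sum_range (fun i => d - i + 1) (d + 1)]
  have h : ∀ n : ℕ, 2 * ∑ i ∈ Finset.range (n + 1), (n - i + 1) = (n + 1) * (n + 2) := by
    intro n
    have h1 : ∑ i ∈ Finset.range (n + 1), (n - i + 1) = ∑ i ∈ Finset.range (n + 1), (i + 1) := by
      rw [← Finset.sum_range_reflect]
      refine Finset.sum_congr rfl fun i hi => ?_
      rw [Finset.mem_range] at hi
      omega
    rw [h1]
    clear h1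
    induction n with
    | zero => simp
    | succ n ih =>
      rw [Finset.sum_range_succ, mul_add, ih]
      ring
  have h2 := h d
  unfold dimH
  omega

theorem card_JJ_eq (K : Type*) [Fintype K] [Field K] (d : Fin 8 → ℕ) :
    Fintype.card (JJ K d) = Fintype.card K ^ dimJ d := by
  classical
  have h : Fintype.card (JJ K d) = Fintype.card (∀ i, Mon (d i) → K) :=
    Fintype.card_congr (Equiv.refl _)
  rw [h, Fintype.card_pi]
  unfold dimJ
  rw [← Finset.prod_pow_eq_pow_sum]
  refine Finset.prod_congr rfl fun i _ => ?_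
  rw [Fintype.card_fun, card_Mon]

theorem kap_eq_mul {l : ℕ} {d : Fin 8 → ℕ} (h : DegOK (Fl l) d) :
    H675.kap l d = eF l * dimJ d := by
  have h1 := H675.card_JJ h
  rw [card_JJ_eq, H933.card_Fl, ← pow_mul] at h1
  exact (Nat.pow_right_injective le_rfl h1).symm

/-! ### The sizes of an instance -/

section defs

variable (C1 c0 D : ℕ) (I : EndOfLine)

/-- Level of the small field. -/
def lqI : ℕ := lq C1 (kI I)

/-- Degrees of the components of `J`. -/
def dI : Fin 8 → ℕ := dd C1 c0 (kI I)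

/-- Dimension of `J`. -/
def kapI : ℕ := kap C1 c0 (kI I)

/-- Lower bound for the degree of the big field. -/
def beI : ℕ := kapI C1 c0 I + qq C1 (kI I) ^ 9 * D + 1

/-- Level of the big field. -/
def leI : ℕ := lvl (beI C1 c0 D I)

end defs

variable {C1 c0 D : ℕ}

theorem eF_lqI (I : EndOfLine) : eF (lqI C1 I) = fq C1 (kI I) := rfl

theorem card_small (I : EndOfLine) : Fintype.card (Fl (lqI C1 I)) = qq C1 (kI I) := by
  rw [H933.card_Fl, eF_lqI]
  rfl

/-- The degrees are good. -/
theorem degOK (h : 64 * (c0 + 2) ≤ C1) (I : EndOfLine) : DegOK (Fl (lqI C1 I)) (dI C1 c0 I) where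
  pos i := one_le_dd C1 c0 (kI I) i
  le i := by
    rw [card_small]
    exact mul_dd_sq_le h (kI I) i

theorem kap_eq (h : 64 * (c0 + 2) ≤ C1) (I : EndOfLine) :
    H675.kap (lqI C1 I) (dI C1 c0 I) = kapI C1 c0 I := kap_eq_mul (degOK h I)

theorem kI_add_le (I : EndOfLine) : kI I + c0 ≤ kapI C1 c0 I := le_kap C1 c0 (kI I)

theorem kI_le_kap (I : EndOfLine) : kI I ≤ kapI C1 c0 I :=
  (Nat.le_add_right _ _).trans (kI_add_le I)

theorem beI_le (I : EndOfLine) : beI C1 c0 D I ≤ eF (leI C1 c0 D I) := le_lvl _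

theorem eF_leI_le (I : EndOfLine) : eF (leI C1 c0 D I) ≤ 3 * beI C1 c0 D I + 2 := lvl_le _

theorem kapI_lt (I : EndOfLine) : kapI C1 c0 I < eF (leI C1 c0 D I) := by
  have := beI_le (C1 := C1) (c0 := c0) (D := D) I
  unfold beI at this
  omega

theorem cG_mul_lt (I : EndOfLine) : cG (lqI C1 I) * D < eF (leI C1 c0 D I) := by
  have h1 := beI_le (C1 := C1) (c0 := c0) (D := D) I
  have h2 : cG (lqI C1 I) ≤ qq C1 (kI I) ^ 9 := by
    refine (cG_le _).trans (le_of_eq ?_)
    rw [pow_mul]
    rfl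
  have h3 : cG (lqI C1 I) * D ≤ qq C1 (kI I) ^ 9 * D := Nat.mul_le_mul_right _ h2
  unfold beI at h1
  omega

theorem card_SL3_mul_lt (I : EndOfLine) :
    Fintype.card (H604.SL3 (lqI C1 I)) * D < eF (leI C1 c0 D I) := by
  rw [H604.card_SL3]
  exact cG_mul_lt I

/-! ### Polynomial time -/

section pt

variable {A : Set Word} {α : Type*} [Enc α] {I : α → EndOfLine} (hI : PT A I)

include hI

theorem pb_kI : PBd (fun a => kI (I a)) :=
  (H633.PBd_two_pow_kI hI).mono fun _ => Nat.lt_two_pow_self.le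

theorem pt_lqI : PT A (fun a => lqI C1 (I a)) := pt_lq (H633.PT_kI hI) (pb_kI hI)

theorem lpar_lqI : LPar A (fun a => lqI C1 (I a)) :=
  ⟨pt_lqI hI, pb_three_pow_lq (pb_kI hI)⟩

theorem pb_qI : PBd (fun a => qq C1 (kI (I a))) := pb_qq (pb_kI hI)

theorem pt_qI : PT A (fun a => qq C1 (kI (I a))) := pt_qq (H633.PT_kI hI) (pb_kI hI)

theorem pt_dI (i : Fin 8) : PT A (fun a => dI C1 c0 (I a) i) :=
  pt_dd (H633.PT_kI hI) (pb_kI hI) i

theorem pt_kapI : PT A (fun a => kapI C1 c0 (I a)) := pt_kap (H633.PT_kI hI) (pb_kI hI)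

theorem pb_two_pow_kapI : PBd (fun a => 2 ^ kapI C1 c0 (I a)) :=
  pb_two_pow_kap (H633.PBd_two_pow_kI hI)

theorem pb_kapI : PBd (fun a => kapI C1 c0 (I a)) := pb_kap (pb_kI hI)

theorem pt_beI : PT A (fun a => beI C1 c0 D (I a)) :=
  PT.add (PT.add (pt_kapI hI) (PT.mul (PT.powConst (pt_qI hI) 9) (PT.const D))) (PT.const 1)

theorem pb_beI : PBd (fun a => beI C1 c0 D (I a)) :=
  ((pb_kapI hI).add (((pb_qI hI).pow 9).mul (PBd.const D))).add (PBd.const 1)

theorem pt_leI : PT A (fun a => leI C1 c0 D (I a)) := pt_lvl (pt_beI hI) (pb_beI hI)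

theorem lpar_leI : LPar A (fun a => leI C1 c0 D (I a)) :=
  ⟨pt_leI hI, pb_three_pow_lvl (pb_beI hI)⟩

end pt

section pt0

variable {A : Set Word} {α : Type} [Enc α] {I : α → EndOfLine} (hI : PT A I)

include hI

theorem gpar_lqI : GPar A (fun a => lqI C1 (I a)) :=
  ⟨lpar_lqI hI, (pb_qI (C1 := C1) hI)⟩

theorem jpar (h : 64 * (c0 + 2) ≤ C1) :
    JPar A (fun a => lqI C1 (I a)) (fun a => dI C1 c0 (I a)) where
  toGPar := gpar_lqI hI
  dpt i := pt_dI hI i
  ok a := degOK h (I a)
  jbd := (pb_two_pow_kapI (C1 := C1) (c0 := c0) hI).mono fun a => by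
    rw [H675.card_JJ (degOK h (I a)), kap_eq h]

end pt0

/-! ### Quasi-linear and polylogarithmic sizes -/

theorem gates_le (I : EndOfLine) : I.S.gates.length + I.P.gates.length ≤ (eolW I).length := by
  have h2 : esize (I.n, I.S, I.P) = (eolW I).length := by
    show (enc (I.n, I.S, I.P)).length = _
    simp only [enc_pair, pr_eq_pairW, enc_nat, enc_boolCircuit, eolW]
  have h3 : ∀ C : BoolCircuit, esize C = esize (C.gates, C.outs) := by
    intro C
    show (boolCircuitW C).length = (enc (C.gates, C.outs)).length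
    rw [enc_pair, pr_eq_pairW]
    unfold boolCircuitW
    have e1 : enc C.gates = listW bgateW C.gates := encList_eq_listW C.gates
    have e2 : enc C.outs = listW Nat.bits C.outs := encList_eq_listW C.outs
    rw [e1, e2]
  have h4 : I.S.gates.length ≤ esize I.S.gates := length_le_esize _
  have h5 : I.P.gates.length ≤ esize I.P.gates := length_le_esize _
  rw [esize_pair, esize_pair, h3, h3, esize_pair, esize_pair] at h2
  omega

/-- The number of slots is linear. -/
theorem two_pow_kI_le (I : EndOfLine) : 2 ^ kI I ≤ 80 * len I := by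
  have h1 := two_pow_kI_lt I
  have h2 := gates_le I
  have h3 := eol_n_le I
  unfold len
  omega

theorem qlin_two_pow_kI : QLin (fun I => 2 ^ kI I) :=
  (H838.QLin.mul' (QLog.const 80) H838.qlin_len).mono two_pow_kI_le

theorem qlog_kI : QLog (fun I => kI I) := by
  refine (qlin_two_pow_kI.size).mono fun I => ?_
  show kI I ≤ Nat.size (2 ^ kI I)
  rw [Nat.size_pow]
  omega

theorem qlog_qI : QLog (fun I => qq C1 (kI I)) :=
  ((QLog.const (4 * (2 * C1 + 1) ^ 3)).mul ((qlog_kI.add (QLog.const 1)).pow 3)).mono fun I =>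
    qq_le C1 (kI I)

theorem qlog_fI : QLog (fun I => eF (lqI C1 I)) :=
  (qlog_qI (C1 := C1)).mono fun I => fq_le_qq C1 (kI I)

theorem qlog_dI (i : Fin 8) : QLog (fun I => dI C1 c0 I i) :=
  ((qlog_kI.add (QLog.const c0)).add (QLog.const 2)).mono fun I => dd_le C1 c0 (kI I) i

theorem qlog_kapI : QLog (fun I => kapI C1 c0 I) :=
  ((qlog_kI.add (QLog.const c0)).add ((QLog.const 25).mul (qlog_fI (C1 := C1)))).mono fun I =>
    kap_le C1 c0 (kI I)

theorem qlog_beI : QLog (fun I => beI C1 c0 D I) :=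
  (qlog_kapI.add ((qlog_qI.pow 9).mul (QLog.const D))).add (QLog.const 1)

theorem qlog_eF_leI : QLog (fun I => eF (leI C1 c0 D I)) :=
  (((QLog.const 3).mul qlog_beI).add (QLog.const 2)).mono fun I => eF_leI_le I

theorem qlog_cG : QLog (fun I => cG (lqI C1 I)) :=
  (qlog_qI.pow 9).mono fun I => by
    refine (cG_le _).trans (le_of_eq ?_)
    rw [pow_mul]
    rfl

/-- The cardinality of `J` is quasi-linear. -/
theorem qlin_J : QLin (fun I => 2 ^ kapI C1 c0 I) :=
  ((qlin_two_pow_kI.mul (QLog.const (2 ^ c0))).mul ((qlog_qI (C1 := C1)).pow 25)).mono fun I =>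
    two_pow_kap_le C1 c0 (kI I)

/-- The number of sites is quasi-linear. -/
theorem qlin_sites : QLin (fun I => 2 ^ kapI C1 c0 I * cG (lqI C1 I)) := qlin_J.mul qlog_cG

end Vale.Agent.P330.H247
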