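import Vale.Agent.P330.H247.SizeI
import Vale.Agent.P330.H743.Enc
import Vale.Agent.P330.H675.KPI
import Vale.Agent.P330.W.H840.ParO

/-!
# Numbers of registers of an instance

For an instance `I`, in polynomial time and polylogarithmic:

* `LJ`: number of switches, `nPubJ`: number of hard-wired contents, `nJ`: number of base contents;
* `qJ`: number of registers of a bundle, `LwJ`: length of the words, `KLJ`: size of the kit;
* `nrJ HL`: number of registers for a content program with `HL` instructions.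
-/

namespace Vale.Agent.P330.H247

open Vale.Agent.Lib.PolyTime
open Vale.Agent.P330.H933 (eF Fl LPar th)
open Vale.Agent.P330.H604 (GPar cG PT_cG PBd_cG)
open Vale.Agent.P330.H743 (kI aI mpI)
open Vale.Agent.P330.H838 (QLog QLin len)
open Vale.Agent.P330.H840 (A0 C1 c0 lqJ dJ kapJ leJ mpJ)
open Vale.Agent.P330.W.H624 (KP)

/-! ### The size of the kit -/

/-- Size of the kit. -/
def KLn (M κ Lw nP : ℕ) : ℕ :=
  1 + (1 + κ * (Lw + 1) + Lw + nP * (1 + κ * (Lw + 1) + 1) + 1 + Lw + (1 + κ * (Lw + 1)) + Lw) * M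

theorem kit_KL {F iJ iG Γ B : Type*} [Zero F] [One F] (P : KP F iJ iG Γ B) :
    P.kit.KL = KLn P.M P.κ P.Lw P.nP := rfl

section KLn

variable {A : Set Word} {α : Type*} [Enc α] {M κ Lw nP : α → ℕ}

theorem pt_KLn (hM : PT A M) (hκ : PT A κ) (hL : PT A Lw) (hn : PT A nP) :
    PT A (fun a => KLn (M a) (κ a) (Lw a) (nP a)) := by
  unfold KLn
  have h1 : PT A (fun a => 1 + κ a * (Lw a + 1)) :=
    PT.add (PT.const 1) (PT.mul hκ (PT.add hL (PT.const 1)))
  exact PT.add (PT.const 1) (PT.mul (PT.add (PT.add (PT.add (PT.add (PT.add (PT.add h1 hL)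
    (PT.mul hn (PT.add h1 (PT.const 1)))) (PT.const 1)) hL) h1) hL) hM)

theorem pb_KLn (hM : PBd M) (hκ : PBd κ) (hL : PBd Lw) (hn : PBd nP) :
    PBd (fun a => KLn (M a) (κ a) (Lw a) (nP a)) := by
  unfold KLn
  fun_prop

end KLn

theorem qlog_KLn {M κ Lw nP : EndOfLine → ℕ} (hM : QLog M) (hκ : QLog κ) (hL : QLog Lw)
    (hn : QLog nP) : QLog (fun I => KLn (M I) (κ I) (Lw I) (nP I)) := by
  unfold KLn
  have c1 : QLog (fun _ => 1) := QLog.const 1
  have h1 : QLog (fun I => 1 + κ I * (Lw I + 1)) := c1.add (hκ.mul (hL.add c1))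
  exact c1.add (((((((h1.add hL).add (hn.mul (h1.add c1))).add c1).add hL).add h1).add hL).mul hM)

/-! ### The machine -/

theorem mpI_L (I : EndOfLine) (k a κ : ℕ) : (mpI I k a κ).L = H874.stN k := rfl

theorem mpI_k (I : EndOfLine) (k a κ : ℕ) : (mpI I k a κ).k = k := rfl

theorem qlog_stN {k : EndOfLine → ℕ} (hk : QLog k) : QLog (fun I => H874.stN (k I)) :=
  (hk.mul (hk.add (QLog.const 1))).mono fun _ => Nat.div_le_self _ _

/-- The number of switches of the machine. -/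
noncomputable def LJ (I : EndOfLine) : ℕ := (mpJ I).L

theorem LJ_eq (I : EndOfLine) : LJ I = H874.stN (kI I) := rfl

/-- The number of hard-wired contents. -/
noncomputable def nPubJ (I : EndOfLine) : ℕ := LJ I + 1

/-- The number of base contents. -/
noncomputable def nJ (I : EndOfLine) : ℕ := H743.nB (mpJ I).k (mpJ I).L

theorem nJ_eq (I : EndOfLine) : nJ I = kI I + 2 * LJ I + 6 := rfl

theorem nJ_pos (I : EndOfLine) : 0 < nJ I := by
  rw [nJ_eq]
  omega

/-- The number of registers of a bundle. -/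
noncomputable def qJ (I : EndOfLine) : ℕ := cG (lqJ I) * 2 ^ (A0.j * A0.t)

/-- The length of the words of the kit. -/
noncomputable def LwJ (I : EndOfLine) : ℕ := H675.lenW (lqJ I) A0.t

/-- The size of the kit. -/
noncomputable def KLJ (I : EndOfLine) : ℕ := KLn (qJ I) (kapJ I) (LwJ I) (kapJ I)

/-- The number of registers. -/
noncomputable def nrJ (HL : EndOfLine → ℕ) (I : EndOfLine) : ℕ :=
  nJ I * qJ I + (nJ I + HL I) * KLJ I

theorem kapJ_eq' : kapJ = fun I => kapI C1 c0 I := funext H840.kapJ_eq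

section pt

variable {A : Set Word} {α : Type} [Enc α] {I : α → EndOfLine} (hI : PT A I)

include hI

theorem gparJ : GPar A (fun a => lqJ (I a)) := gpar_lqI hI

theorem jparJ : H675.JPar A (fun a => lqJ (I a)) (fun a => dJ (I a)) := jpar hI H840.hC

theorem lpar_leJ : LPar A (fun a => leJ (I a)) := lpar_leI hI

theorem pt_kapJ : PT A (fun a => kapJ (I a)) :=
  (pt_kapI (C1 := C1) (c0 := c0) hI).congr fun a => (H840.kapJ_eq (I a)).symm

theorem pb_kapJ : PBd (fun a => kapJ (I a)) :=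
  (pb_kapI (C1 := C1) (c0 := c0) hI).mono fun a => (H840.kapJ_eq (I a)).le

theorem pt_kJ : PT A (fun a => (mpJ (I a)).k) := H633.PT_kI hI

theorem pb_kJ : PBd (fun a => (mpJ (I a)).k) := pb_kI hI

theorem pt_LJ : PT A (fun a => LJ (I a)) := H874.PT.stN (H633.PT_kI hI)

theorem pb_LJ : PBd (fun a => LJ (I a)) := H874.PBd_stN (pb_kI hI)

theorem pt_nPubJ : PT A (fun a => nPubJ (I a)) := PT.add (pt_LJ hI) (PT.const 1)

theorem pb_nPubJ : PBd (fun a => nPubJ (I a)) := (pb_LJ hI).add (PBd.const 1)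

theorem pt_nJ : PT A (fun a => nJ (I a)) :=
  PT.add (PT.add (pt_kJ hI) (PT.mul (PT.const 2) (pt_LJ hI))) (PT.const 6)

theorem pb_nJ : PBd (fun a => nJ (I a)) :=
  ((pb_kJ hI).add ((PBd.const 2).mul (pb_LJ hI))).add (PBd.const 6)

theorem pt_qJ : PT A (fun a => qJ (I a)) := PT.mul (PT_cG (gparJ hI)) (PT.const _)

theorem pb_qJ : PBd (fun a => qJ (I a)) := (PBd_cG (gparJ hI)).mul (PBd.const _)

theorem pt_LwJ : PT A (fun a => LwJ (I a)) := H675.PT_lenW (gparJ hI) A0.t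

theorem pb_LwJ : PBd (fun a => LwJ (I a)) := H675.PBd_lenW (gparJ hI) A0.t

theorem pt_KLJ : PT A (fun a => KLJ (I a)) :=
  pt_KLn (pt_qJ hI) (pt_kapJ hI) (pt_LwJ hI) (pt_kapJ hI)

theorem pb_KLJ : PBd (fun a => KLJ (I a)) :=
  pb_KLn (pb_qJ hI) (pb_kapJ hI) (pb_LwJ hI) (pb_kapJ hI)

theorem pt_nrJ {HL : EndOfLine → ℕ} (h : PT A (fun a => HL (I a))) :
    PT A (fun a => nrJ HL (I a)) :=
  PT.add (PT.mul (pt_nJ hI) (pt_qJ hI)) (PT.mul (PT.add (pt_nJ hI) h) (pt_KLJ hI))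

theorem pb_nrJ {HL : EndOfLine → ℕ} (h : PBd (fun a => HL (I a))) :
    PBd (fun a => nrJ HL (I a)) :=
  ((pb_nJ hI).mul (pb_qJ hI)).add (((pb_nJ hI).add h).mul (pb_KLJ hI))

end pt

/-! ### Polylogarithmic bounds -/

theorem qlog_kapJ : QLog kapJ := by
  rw [kapJ_eq']
  exact qlog_kapI

theorem qlog_eF_lqJ : QLog (fun I => eF (lqJ I)) := qlog_fI

theorem qlog_eF_leJ : QLog (fun I => eF (leJ I)) := qlog_eF_leI

theorem three_pow_le_eF (l : ℕ) : 3 ^ l ≤ eF l := by
  unfold H933.eF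
  omega

theorem level_le_eF (l : ℕ) : l ≤ eF l := (Nat.lt_pow_self (by norm_num)).le.trans (three_pow_le_eF l)

theorem qlog_lqJ : QLog lqJ := qlog_eF_lqJ.mono fun _ => level_le_eF _

theorem qlog_leJ : QLog leJ := qlog_eF_leJ.mono fun _ => level_le_eF _

theorem qlog_three_pow_lqJ : QLog (fun I => 3 ^ lqJ I) := qlog_eF_lqJ.mono fun _ => three_pow_le_eF _

theorem qlog_three_pow_leJ : QLog (fun I => 3 ^ leJ I) := qlog_eF_leJ.mono fun _ => three_pow_le_eF _

theorem qlog_dJ (i : Fin 8) : QLog (fun I => dJ I i) := qlog_dI i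

theorem qlog_kJ : QLog (fun I => (mpJ I).k) := qlog_kI

theorem qlog_LJ : QLog LJ := qlog_stN qlog_kI

theorem qlog_nPubJ : QLog nPubJ := qlog_LJ.add (QLog.const 1)

theorem qlog_nJ : QLog nJ := (qlog_kI.add ((QLog.const 2).mul qlog_LJ)).add (QLog.const 6)

theorem qlog_qJ : QLog qJ := qlog_cG.mul (QLog.const _)

theorem qlog_LwJ : QLog LwJ := by
  have h1 : QLog (fun I => 2 ^ (eF (lqJ I) * 3)) :=
    ((qlog_qI (C1 := C1)).pow 3).mono fun I => by
      rw [pow_mul]
      rfl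
  exact (((QLog.const 2).mul qlog_cG).add (QLog.const _)).add
    (((QLog.const 2).mul h1).add (QLog.const 1))

theorem qlog_KLJ : QLog KLJ := qlog_KLn qlog_qJ qlog_kapJ qlog_LwJ qlog_kapJ

theorem qlog_nrJ {HL : EndOfLine → ℕ} (h : QLog HL) : QLog (nrJ HL) :=
  (qlog_nJ.mul qlog_qJ).add ((qlog_nJ.add h).mul qlog_KLJ)

end Vale.Agent.P330.H247
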