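import Vale.Agent.P330.H247.Num
import Vale.Agent.P330.H155.RSJ
import Vale.Agent.P330.H985.Pub
import Vale.Agent.P330.W.H624.KitLay

/-!
# Size of the names of the kit

`esize_kit_le`: the size of the list of the names of the instructions of the kit `P.kit`, for
tables `P` of small numbers; `qlog_kitJ`, `qlog_iTJ`, `qlog_iMJ`, `qlog_iSJ`, `qlog_iBJ`: the lists
of numbers of the kit of an instance are of polylogarithmic size.
-/

set_option autoImplicit false

namespace Vale.Agent.P330.H247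

open Vale.Agent.Lib.PolyTime
open Vale.Agent.P330.H933 (eF Fl cod cod_lt)
open Vale.Agent.P330.H604 (cG gE gn gn_lt)
open Vale.Agent.P330.H155 (KIns kitJ kpJ nLab)
open Vale.Agent.P330.H985 (KN knOf tabG)
open Vale.Agent.P330.H838 (QLog)
open Vale.Agent.P330.H840 (A0 lqJ dJ leJ kapJ)
open Vale.Agent.P330.W.H624 (KP Dsc)

/-! ### Descriptors -/

/-- The additive function and the layer of a table are small. -/
def DQ (N : ℕ) : Dsc → Prop
  | .rhsD p _ => p < N
  | .t2 p a => p < N ∧ a < N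
  | _ => True

/-- Sources and additive functions are small. -/
def DB (N : ℕ) : Dsc → Prop
  | .u0 _ => True
  | .ch _ _ a _ => a < N
  | .comb a b c => a < N ∧ b < N ∧ c < N
  | .rhsD p a => p < N ∧ a < N
  | .add a b => a < N ∧ b < N
  | .t2 p a => p < N ∧ a < N

theorem DB_of_lt {d : Dsc} {n N : ℕ} (h : d.Lt n) (hn : n ≤ N) (hq : DQ N d) : DB N d := by
  cases d with
  | u0 c => trivial
  | ch t j a s => exact lt_of_lt_of_le h hn
  | comb a b c => exact ⟨lt_of_lt_of_le h.1 hn, lt_of_lt_of_le h.2.1 hn, lt_of_lt_of_le h.2.2 hn⟩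
  | rhsD p a => exact ⟨hq, lt_of_lt_of_le h hn⟩
  | add a b => exact ⟨lt_of_lt_of_le h.1 hn, lt_of_lt_of_le h.2 hn⟩
  | t2 p a => exact hq

section DQ

variable {F iJ iG Γ B : Type*} {P : KP F iJ iG Γ B}

theorem DQ_chD (N a t n : ℕ) (s : Bool) (j : ℕ) : DQ N (KP.chD a t n s j) := by
  unfold KP.chD
  split_ifs <;> trivial

theorem DQ_solD (N a i : ℕ) : DQ N (P.solD a i) := by
  unfold KP.solD
  split_ifs
  · exact DQ_chD _ _ _ _ _ _
  · trivial

theorem DQ_sumD (N a i : ℕ) : DQ N (P.sumD a i) := by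
  unfold KP.sumD
  split_ifs
  · exact DQ_chD _ _ _ _ _ _
  · trivial

theorem DQ_ds (hL : 0 < P.Lw) {n N : ℕ} (hn : n < N) : DQ N (P.ds n) := by
  have hNS : P.NS = 1 + P.κ * P.R1 := rfl
  unfold KP.ds
  split_ifs with h1 h2 h3 h4 h5 h6 h7
  · trivial
  · exact DQ_solD _ _ _
  · exact DQ_chD _ _ _ _ _ _
  · have h5 := Nat.div_add_mod (n - (P.NS + P.Lw)) (P.NS + 1)
    have h6 : (n - (P.NS + P.Lw)) / (P.NS + 1) ≤ n - (P.NS + P.Lw) := Nat.div_le_self _ _
    set Q := (n - (P.NS + P.Lw)) / (P.NS + 1)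
    set r := (n - (P.NS + P.Lw)) % (P.NS + 1)
    have h7 : (P.NS + 1) * Q = Q * (P.NS + 1) := Nat.mul_comm _ _
    simp only
    split_ifs with h8 h9
    · change Q < N
      omega
    · refine ⟨?_, ?_⟩
      · omega
      · omega
    · exact DQ_solD _ _ _
  · trivial
  · exact DQ_chD _ _ _ _ _ _
  · trivial
  · exact DQ_sumD _ _ _
  · exact DQ_chD _ _ _ _ _ _

theorem DB_ds (hL : 0 < P.Lw) {n N : ℕ} (hn : n < N) : DB N (P.ds n) :=
  DB_of_lt (KP.ds_lt hL n) hn.le (DQ_ds hL hn)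

end DQ

/-! ### Names of instructions -/

/-- The size of a name of an instruction. -/
def knB (N T : ℕ) : ℕ := 6 * N + 4 + 2 * (T * (2 * (3 * N + 1) + 1)) + T * (2 * N + 1)

theorem esize_kn_le {x : KN} {N T : ℕ} (h1 : esize x.1 ≤ N) (h2 : esize x.2.1 ≤ N)
    (h3 : esize x.2.2.1 ≤ N) (h4 : ∀ p ∈ x.2.2.2.1, esize p.1 ≤ N ∧ esize p.2 ≤ N)
    (h4' : x.2.2.2.1.length ≤ T) (h5 : ∀ y ∈ x.2.2.2.2, esize y ≤ N)
    (h5' : x.2.2.2.2.length ≤ T) : esize x ≤ knB N T := by
  obtain ⟨a, b, c, l, l'⟩ := x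
  simp only at h1 h2 h3 h4 h4' h5 h5'
  have e1 : esize l ≤ T * (2 * (3 * N + 1) + 1) := by
    refine (esize_list_le (B := 3 * N + 1) fun p hp => ?_).trans (Nat.mul_le_mul_right _ h4')
    obtain ⟨u, v⟩ := p
    have := h4 _ hp
    rw [esize_pair]
    simp only at this
    omega
  have e2 : esize l' ≤ T * (2 * N + 1) :=
    (esize_list_le h5).trans (Nat.mul_le_mul_right _ h5')
  simp only [esize_pair]
  unfold knB
  omega

section ins

variable {L nJ nG D ng : ℕ} {Γ : Type}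

theorem mem_tabG {gE : Γ ≃ Fin ng} {β : Type*} {f : Γ → Fin D → β} {y : β}
    (h : y ∈ tabG gE f) : ∃ v b, y = f v b := by
  unfold tabG at h
  rw [List.mem_flatMap] at h
  obtain ⟨g, -, h⟩ := h
  rw [List.mem_map] at h
  obtain ⟨b, -, rfl⟩ := h
  exact ⟨_, _, rfl⟩

theorem length_tabG {gE : Γ ≃ Fin ng} {β : Type*} {f : Γ → Fin D → β} :
    (tabG gE f).length = ng * D := by
  unfold tabG
  rw [List.length_flatMap]
  simp

/-- The name of the instruction of a letter is small. -/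
theorem esize_knOf_insL_le {P : KP (Fl L) (Fin nJ) (Fin nG) Γ (Fin D)} (gE : Γ ≃ Fin ng) {N T : ℕ}
    (hF : eF L ≤ N) (hJ : nJ ≤ N) (hG : nG ≤ N) (h3 : 3 ≤ N) (hT : 1 ≤ T) (t : ℕ × ℕ) {i : ℕ}
    (hr : esize i ≤ N) : esize (knOf gE (P.insL t i)) ≤ knB N T := by
  have hN : ∀ x : ℕ, x ≤ N → esize x ≤ N := fun x hx => (esize_nat_le_self x).trans hx
  unfold KP.insL
  split_ifs with h1 h2
  · have e : knOf gE (KIns.tr (P.dJ t.2) i : KIns (Fl L) (Fin nJ) (Fin nG) Γ (Fin D)) =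
        (1, (P.dJ t.2 : ℕ), i, [], []) := rfl
    rw [e]
    exact esize_kn_le (hN 1 (by omega)) (hN _ ((Fin.is_lt _).le.trans hJ)) hr (by simp)
      (by simp) (by simp) (by simp)
  · have e : knOf gE (KIns.gm (P.dG t.2) i : KIns (Fl L) (Fin nJ) (Fin nG) Γ (Fin D)) =
        (2, (P.dG t.2 : ℕ), i, [], []) := rfl
    rw [e]
    exact esize_kn_le (hN 2 (by omega)) (hN _ ((Fin.is_lt _).le.trans hG)) hr (by simp)
      (by simp) (by simp) (by simp)
  · have e : knOf gE (KIns.lin [(1, i)] : KIns (Fl L) (Fin nJ) (Fin nG) Γ (Fin D)) =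
        (0, 0, 0, [(cod L 1, i)], []) := rfl
    rw [e]
    refine esize_kn_le (hN 0 (by omega)) (hN 0 (by omega)) (hN 0 (by omega)) ?_ (by simpa)
      (by simp) (by simp)
    intro p hp
    simp only [List.mem_singleton] at hp
    subst hp
    exact ⟨(esize_nat_le (cod_lt _)).trans hF, hr⟩

/-- The names of the instructions of a layer are small. -/
theorem esize_knOf_insD_le {P : KP (Fl L) (Fin nJ) (Fin nG) Γ (Fin D)} (gE : Γ ≃ Fin ng)
    (hsr : ∀ m < P.M, P.sr m < P.M) (hix : ∀ v b, P.ix v b < P.M) {N T : ℕ}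
    (hF : eF L ≤ N) (hR : P.kit.KL ≤ N) (hJ : nJ ≤ N) (hG : nG ≤ N) (h3 : 3 ≤ N)
    (hT : 2 * P.M + 2 ≤ T) (hT' : ng * D ≤ T) (hM : P.NL ≤ N) {m : ℕ} (hm : m < P.M) {d : Dsc}
    (hd : DB P.NL d) : esize (knOf gE (P.insD m d)) ≤ knB N T := by
  have hN : ∀ x : ℕ, x ≤ N → esize x ≤ N := fun x hx => (esize_nat_le_self x).trans hx
  have hreg : ∀ n i, n < P.NL → i < P.M → esize (P.rg n i) ≤ N := by
    intro n i hn hi
    refine hN _ (le_trans ?_ hR)
    have h : P.kit.KL = 1 + P.NL * P.M := rfl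
    rw [h]
    unfold KP.rg
    have : (n + 1) * P.M ≤ P.NL * P.M := Nat.mul_le_mul_right _ hn
    rw [Nat.succ_mul] at this
    omega
  have hc : ∀ c : Fl L, esize (cod L c) ≤ N := fun c => (esize_nat_le (cod_lt c)).trans hF
  have h0 : esize (0 : ℕ) ≤ N := hN _ (Nat.zero_le _)
  cases d with
  | u0 c =>
    refine esize_kn_le (hN _ (Nat.zero_le _)) h0 h0 ?_ ?_ (by simp [KP.insD, knOf])
      (by simp [KP.insD, knOf])
    · intro p hp
      simp only [KP.insD, knOf, List.map_cons, List.map_nil, List.mem_singleton] at hp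
      subst hp
      exact ⟨hc _, h0⟩
    · simp only [KP.insD, knOf, List.map_cons, List.map_nil, List.length_singleton]
      omega
  | ch t j a s =>
    have hi : (if s then P.sr m else m) < P.M := by
      cases s
      · exact hm
      · exact hsr m hm
    have hr := hreg a _ hd hi
    exact esize_knOf_insL_le gE hF hJ hG h3 (by omega) _ hr
  | comb nr nc ny =>
    refine esize_kn_le (hN _ (Nat.zero_le _)) h0 h0 ?_ ?_ (by simp [KP.insD, knOf])
      (by simp [KP.insD, knOf])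
    · intro p hp
      simp only [KP.insD, knOf, List.map_cons, List.map_append, List.map_map, List.mem_cons,
        List.mem_append, List.mem_map, List.mem_range, Function.comp_apply] at hp
      rcases hp with rfl | ⟨i, hi, rfl⟩ | ⟨i, hi, rfl⟩
      · exact ⟨hc _, hreg _ _ hd.1 hm⟩
      · exact ⟨hc _, hreg _ _ hd.2.1 hi⟩
      · exact ⟨hc _, hreg _ _ hd.2.2 (hsr i hi)⟩
    · simp only [KP.insD, knOf, List.length_map, List.length_cons, List.length_append,
        List.length_range]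
      omega
  | rhsD p a =>
    refine esize_kn_le (hN _ (Nat.zero_le _)) h0 h0 ?_ ?_ (by simp [KP.insD, knOf])
      (by simp [KP.insD, knOf])
    · intro q hq
      simp only [KP.insD, knOf, List.map_map, List.mem_map, List.mem_range,
        Function.comp_apply] at hq
      obtain ⟨i, hi, rfl⟩ := hq
      exact ⟨hc _, hreg _ _ hd.2 hi⟩
    · simp only [KP.insD, knOf, List.length_map, List.length_range]
      omega
  | add a b =>
    refine esize_kn_le (hN _ (Nat.zero_le _)) h0 h0 ?_ ?_ (by simp [KP.insD, knOf])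
      (by simp [KP.insD, knOf])
    · intro q hq
      simp only [KP.insD, knOf, List.map_cons, List.map_nil, List.mem_cons,
        List.not_mem_nil, or_false] at hq
      rcases hq with rfl | rfl
      · exact ⟨hc _, hreg _ _ hd.1 hm⟩
      · exact ⟨hc _, hreg _ _ hd.2 hm⟩
    · simp only [KP.insD, knOf, List.length_map, List.length_cons, List.length_nil]
      omega
  | t2 p a =>
    have e : knOf gE (P.insD m (.t2 p a)) =
        (3, p, 0, [], tabG gE fun v b => P.rg a (P.ix v b)) := rfl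
    rw [e]
    refine esize_kn_le (hN 3 h3) (hN p (hd.1.le.trans hM)) h0 (by simp) (by simp) ?_ ?_
    · intro y hy
      have hy' : y ∈ tabG gE fun v b => P.rg a (P.ix v b) := hy
      obtain ⟨v, b, rfl⟩ := mem_tabG hy'
      exact hreg _ _ hd.2 (hix v b)
    · exact (length_tabG (gE := gE) (f := fun v b => P.rg a (P.ix v b))).le.trans hT'

/-- **The names of the instructions of the kit.** -/
theorem esize_kit_le {P : KP (Fl L) (Fin nJ) (Fin nG) Γ (Fin D)} (gE : Γ ≃ Fin ng)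
    (hL : 0 < P.Lw)
    (hsr : ∀ m < P.M, P.sr m < P.M) (hix : ∀ v b, P.ix v b < P.M) {N T : ℕ}
    (hF : eF L ≤ N) (hR : P.kit.KL ≤ N) (hJ : nJ ≤ N) (hG : nG ≤ N) (h3 : 3 ≤ N)
    (hT : 2 * P.M + 2 ≤ T) (hT' : ng * D ≤ T) :
    esize ((List.range (P.kit.KL - 1)).map fun k => knOf gE (P.kit.ins k)) ≤
      P.kit.KL * (2 * knB N T + 1) := by
  have hKL : P.kit.KL = 1 + P.NL * P.M := rfl
  refine (esize_list_le (B := knB N T) fun x hx => ?_).trans ?_
  · rw [List.mem_map] at hx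
    obtain ⟨k, hk, rfl⟩ := hx
    rw [List.mem_range] at hk
    have hk' : k < P.NL * P.M := by omega
    have hM0 : 0 < P.M := by
      rcases Nat.eq_zero_or_pos P.M with h | h
      · rw [h] at hk'
        simp at hk'
      · exact h
    have hNL : P.NL ≤ N := by
      refine le_trans ?_ hR
      rw [hKL]
      have := Nat.le_mul_of_pos_right P.NL hM0
      omega
    have h1 : k % P.M < P.M := Nat.mod_lt _ hM0
    have h2 : k / P.M < P.NL := (Nat.div_lt_iff_lt_mul hM0).2 hk'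
    exact esize_knOf_insD_le gE hsr hix hF hR hJ hG h3 hT hT' hNL h1 (DB_ds hL h2)
  · rw [List.length_map, List.length_range]
    exact Nat.mul_le_mul_right _ (Nat.sub_le _ _)

end ins

/-! ### The kit of an instance -/

theorem kitJ_KL (I : EndOfLine) : (kitJ I).KL = KLJ I := rfl

theorem kpJ_M (I : EndOfLine) : (kpJ I).M = qJ I := rfl

theorem ixJ_lt (I : EndOfLine) (v : H604.SL3 (lqJ I)) (b : Fin (nLab A0)) :
    (kpJ I).ix v b < (kpJ I).M := by
  have h1 : (kpJ I).ix v b = b + 2 ^ (A0.j * A0.t) * gn (lqJ I) v := rfl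
  have h2 : (kpJ I).M = cG (lqJ I) * 2 ^ (A0.j * A0.t) := rfl
  have h3 : (gn (lqJ I) v + 1) * 2 ^ (A0.j * A0.t) ≤ cG (lqJ I) * 2 ^ (A0.j * A0.t) :=
    Nat.mul_le_mul_right _ (gn_lt v)
  have h4 : (b : ℕ) < 2 ^ (A0.j * A0.t) := b.2
  rw [h1, h2]
  rw [Nat.succ_mul, Nat.mul_comm] at h3
  omega

theorem srJ_lt (I : EndOfLine) (m : ℕ) : (kpJ I).sr m < (kpJ I).M := by
  have h2 : (kpJ I).M = cG (lqJ I) * 2 ^ (A0.j * A0.t) := rfl
  have h1 : (kpJ I).sr m = H675.srT (lqJ I) (dJ I) A0.j A0.t m := rfl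
  rw [h1, h2]
  unfold H675.srT
  set g := H604.ge (lqJ I) (m / 2 ^ (A0.j * A0.t)) *
    (H604.labP (H604.lett (lqJ I) (dJ I)) A0.j A0.t (m % 2 ^ (A0.j * A0.t))).2⁻¹
  have h3 : (gn (lqJ I) g + 1) * 2 ^ (A0.j * A0.t) ≤ cG (lqJ I) * 2 ^ (A0.j * A0.t) :=
    Nat.mul_le_mul_right _ (gn_lt g)
  have h4 : m % 2 ^ (A0.j * A0.t) < 2 ^ (A0.j * A0.t) := Nat.mod_lt _ (by positivity)
  rw [Nat.succ_mul, Nat.mul_comm (gn (lqJ I) g)] at h3
  omega

theorem qlog_knB {N T : EndOfLine → ℕ} (hN : QLog N) (hT : QLog T) :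
    QLog (fun I => knB (N I) (T I)) := by
  have c : ∀ n : ℕ, QLog (fun _ => n) := QLog.const
  exact ((((c 6).mul hN).add (c 4)).add ((c 2).mul (hT.mul (((c 2).mul (((c 3).mul hN).add
    (c 1))).add (c 1))))).add (hT.mul (((c 2).mul hN).add (c 1)))

/-- **The names of the instructions of the kit of an instance are of polylogarithmic size.** -/
theorem qlog_kitJ : QLog (fun I => esize ((List.range ((kitJ I).KL - 1)).map
    fun k => knOf (gE (lqJ I)) ((kitJ I).ins k))) := by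
  have c : ∀ n : ℕ, QLog (fun _ => n) := QLog.const
  have h : QLog (fun I => KLJ I * (2 * knB (KLJ I + eF (leJ I) + 12) (2 * qJ I + 2) + 1)) :=
    qlog_KLJ.mul (((c 2).mul (qlog_knB ((qlog_KLJ.add qlog_eF_leJ).add (c 12))
      (((c 2).mul qlog_qJ).add (c 2)))).add (c 1))
  refine h.mono fun I => ?_
  refine esize_kit_le (P := kpJ I) (gE (lqJ I)) (H675.lenW_pos _ _) (fun m _ => srJ_lt I m)
    (ixJ_lt I) ?_ ?_ ?_ ?_ ?_ ?_ ?_
  · omega
  · rw [show (kpJ I).kit.KL = KLJ I from rfl]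
    omega
  · omega
  · omega
  · omega
  · rw [kpJ_M]
  · rw [show cG (lqJ I) * nLab A0 = qJ I from rfl]
    omega

/-- Sizes of lists of small numbers. -/
theorem qlog_nats {f : EndOfLine → List ℕ} {n N : EndOfLine → ℕ} (hn : QLog n) (hN : QLog N)
    (hl : ∀ I, (f I).length ≤ n I) (h : ∀ I, ∀ x ∈ f I, x ≤ N I) : QLog (fun I => esize (f I)) := by
  have c : ∀ n : ℕ, QLog (fun _ => n) := QLog.const
  refine (hn.mul (((c 2).mul hN).add (c 1))).mono fun I => ?_
  exact (esize_list_le fun x hx => (esize_nat_le_self x).trans (h I x hx)).trans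
    (Nat.mul_le_mul_right _ (hl I))

theorem rgJ_le (I : EndOfLine) {n m : ℕ} (hn : n < (kpJ I).NL) : (kpJ I).rg n m ≤ KLJ I + m := by
  have h1 : KLJ I = 1 + (kpJ I).NL * (kpJ I).M := rfl
  rw [h1]
  unfold KP.rg
  have : (n + 1) * (kpJ I).M ≤ (kpJ I).NL * (kpJ I).M := Nat.mul_le_mul_right _ hn
  rw [Nat.succ_mul] at this
  omega

/-- The registers of the translations. -/
theorem iTJ_le (I : EndOfLine) (j : ℕ) : (kitJ I).iT j ≤ KLJ I + j := by
  refine rgJ_le I ?_
  have h1 : (kpJ I).NL = (kpJ I).sB + (kpJ I).Lw := rfl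
  have h2 : (kpJ I).sB = (kpJ I).sS + (kpJ I).NS := rfl
  have h3 : (kpJ I).sS = (kpJ I).sT + 1 + (kpJ I).Lw := rfl
  omega

theorem iMJ_le (I : EndOfLine) {p : ℕ} (hp : p < kapJ I) : (kitJ I).iM p ≤ KLJ I := by
  refine (rgJ_le I (m := 0) ?_).trans (by omega)
  have h1 : (kpJ I).NL = (kpJ I).sB + (kpJ I).Lw := rfl
  have h2 : (kpJ I).sB = (kpJ I).sS + (kpJ I).NS := rfl
  have h3 : (kpJ I).sS = (kpJ I).sT + 1 + (kpJ I).Lw := rfl
  have h4 : (kpJ I).sT = (kpJ I).NS + (kpJ I).Lw + kapJ I * ((kpJ I).NS + 1) := rfl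
  have h5 : (p + 1) * ((kpJ I).NS + 1) ≤ kapJ I * ((kpJ I).NS + 1) := Nat.mul_le_mul_right _ hp
  rw [Nat.succ_mul] at h5
  change (kpJ I).NS + (kpJ I).Lw + p * ((kpJ I).NS + 1) + (kpJ I).NS < _
  omega

theorem NLJ_pos (I : EndOfLine) : 0 < (kpJ I).NL := by
  have h1 : (kpJ I).NL = (kpJ I).sB + (kpJ I).Lw := rfl
  have h2 : (kpJ I).sB = (kpJ I).sS + (kpJ I).NS := rfl
  have h3 : (kpJ I).sS = (kpJ I).sT + 1 + (kpJ I).Lw := rfl
  omega

theorem iSJ_le (I : EndOfLine) : (kitJ I).iS ≤ KLJ I := by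
  refine (rgJ_le I (m := 0) ?_).trans (by omega)
  have h1 : (kpJ I).NL = (kpJ I).sB + (kpJ I).Lw := rfl
  have h2 := NLJ_pos I
  have h3 : 0 < (kpJ I).Lw := H675.lenW_pos _ _
  omega

theorem iBJ_le (I : EndOfLine) (v : H604.SL3 (lqJ I)) (b : Fin (nLab A0)) :
    (kitJ I).iB v b ≤ KLJ I + qJ I := by
  have h := ixJ_lt I v b
  rw [kpJ_M] at h
  refine (rgJ_le I (n := (kpJ I).NL - 1) (m := (kpJ I).ix v b) ?_).trans (by omega)
  have := NLJ_pos I
  omega

/-- The registers of the translations are of polylogarithmic size. -/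
theorem qlog_iTJ : QLog (fun I => esize ((List.range (kapJ I)).map (kitJ I).iT)) := by
  refine qlog_nats qlog_kapJ (qlog_KLJ.add qlog_kapJ) (fun I => by simp) fun I x hx => ?_
  rw [List.mem_map] at hx
  obtain ⟨j, hj, rfl⟩ := hx
  rw [List.mem_range] at hj
  have := iTJ_le I j
  omega

/-- The registers of the additive functions are of polylogarithmic size. -/
theorem qlog_iMJ : QLog (fun I => esize ((List.range (kapJ I)).map (kitJ I).iM)) := by
  refine qlog_nats qlog_kapJ qlog_KLJ (fun I => by simp) fun I x hx => ?_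
  rw [List.mem_map] at hx
  obtain ⟨j, hj, rfl⟩ := hx
  rw [List.mem_range] at hj
  exact iMJ_le I hj

/-- The register of the sum is of polylogarithmic size. -/
theorem qlog_iSJ : QLog (fun I => esize (kitJ I).iS) :=
  qlog_KLJ.mono fun I => (esize_nat_le_self _).trans (iSJ_le I)

/-- The registers of the bundle are of polylogarithmic size. -/
theorem qlog_iBJ : QLog (fun I => esize (tabG (gE (lqJ I)) (kitJ I).iB)) := by
  refine qlog_nats qlog_qJ (qlog_KLJ.add qlog_qJ) (fun I => ?_) fun I x hx => ?_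
  · rw [length_tabG]
    exact le_rfl
  · obtain ⟨v, b, rfl⟩ := mem_tabG hx
    exact iBJ_le I v b

end Vale.Agent.P330.H247
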