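import Mathlib

/-!
# Sizes

Parameters of the outer network as functions of `k` (the logarithm of the number of slots) and of
constants `C1`, `c0`:

* `lvl B`: the least `l` with `B ≤ 2 * 3 ^ l` (fields with `2 ^ (2 * 3 ^ l)` elements),
* `lq`, `fq`, `qq`: the small field, `q = 2 ^ f`, `f = 2 * 3 ^ lq`,
* `dd`: the degrees of the eight components of `J`, `dimJ` the dimension of `J` over the small
  field,
* `kap`: the logarithm of the cardinality of `J`.
-/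

namespace Vale.Agent.P330.H247

open Finset

/-! ### Levels of the fields -/

theorem exists_lvl (B : ℕ) : ∃ l, B ≤ 2 * 3 ^ l := by
  refine ⟨B, ?_⟩
  have := (Nat.lt_pow_self (a := 3) (n := B) (by norm_num)).le
  omega

/-- The least `l` with `B ≤ 2 * 3 ^ l`. -/
def lvl (B : ℕ) : ℕ := Nat.find (exists_lvl B)

theorem le_lvl (B : ℕ) : B ≤ 2 * 3 ^ lvl B := Nat.find_spec (exists_lvl B)

theorem lvl_le (B : ℕ) : 2 * 3 ^ lvl B ≤ 3 * B + 2 := by
  rcases Nat.eq_zero_or_pos (lvl B) with h | h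
  · rw [h]; omega
  · have h1 : ¬ (B ≤ 2 * 3 ^ (lvl B - 1)) :=
      Nat.find_min (exists_lvl B) (m := lvl B - 1) (by show lvl B - 1 < lvl B; omega)
    have h2 : 3 ^ lvl B = 3 * 3 ^ (lvl B - 1) := by
      rw [← pow_succ']
      congr 1
      omega
    rw [h2]
    omega

theorem lvl_lt (B : ℕ) : lvl B < B + 1 := by
  have : lvl B ≤ B := by
    refine Nat.find_min' (exists_lvl B) ?_
    have := (Nat.lt_pow_self (a := 3) (n := B) (by norm_num)).le
    omega
  omega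

theorem lvl_eq_iff {B l : ℕ} : lvl B = l ↔ B ≤ 2 * 3 ^ l ∧ ∀ j < l, ¬ (B ≤ 2 * 3 ^ j) := by
  exact Nat.find_eq_iff (exists_lvl B)

theorem lvl_mono {B B' : ℕ} (h : B ≤ B') : lvl B ≤ lvl B' :=
  Nat.find_min' (exists_lvl B) (h.trans (le_lvl B'))

/-! ### The small field -/

/-- The level of the small field. -/
def lq (C1 k : ℕ) : ℕ := lvl (Nat.size (C1 * (k + 1)))

/-- The degree of the small field. -/
def fq (C1 k : ℕ) : ℕ := 2 * 3 ^ lq C1 k

/-- The cardinality of the small field. -/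
def qq (C1 k : ℕ) : ℕ := 2 ^ fq C1 k

theorem fq_pos (C1 k : ℕ) : 2 ≤ fq C1 k := by
  unfold fq
  have : 1 ≤ 3 ^ lq C1 k := Nat.one_le_pow _ _ (by norm_num)
  omega

theorem le_qq (C1 k : ℕ) : C1 * (k + 1) ≤ qq C1 k := by
  refine (Nat.lt_size_self _).le.trans ?_
  exact Nat.pow_le_pow_right (by norm_num) (le_lvl _)

theorem four_le_qq (C1 k : ℕ) : 4 ≤ qq C1 k := by
  have := Nat.pow_le_pow_right (n := 2) (by norm_num) (fq_pos C1 k)
  exact this

theorem two_pow_size_le (n : ℕ) : 2 ^ Nat.size n ≤ 2 * n + 1 := by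
  rcases Nat.eq_zero_or_pos n with rfl | h
  · simp
  · have h1 : 0 < Nat.size n := Nat.size_pos.2 h
    have h2 : 2 ^ (Nat.size n - 1) ≤ n := by
      by_contra h3
      have := Nat.size_le.2 (not_le.1 h3)
      omega
    have h3 : 2 ^ Nat.size n = 2 * 2 ^ (Nat.size n - 1) := by
      rw [← pow_succ']
      congr 1
      omega
    omega

theorem qq_le (C1 k : ℕ) : qq C1 k ≤ 4 * (2 * C1 + 1) ^ 3 * (k + 1) ^ 3 := by
  have h1 : qq C1 k ≤ 2 ^ (3 * Nat.size (C1 * (k + 1)) + 2) :=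
    Nat.pow_le_pow_right (by norm_num) (lvl_le _)
  refine h1.trans ?_
  have h2 : 2 ^ (3 * Nat.size (C1 * (k + 1)) + 2) = 4 * (2 ^ Nat.size (C1 * (k + 1))) ^ 3 := by
    rw [pow_add, ← pow_mul, mul_comm (Nat.size _) 3]
    ring
  rw [h2]
  have h3 : 2 ^ Nat.size (C1 * (k + 1)) ≤ (2 * C1 + 1) * (k + 1) := by
    refine (two_pow_size_le _).trans ?_
    nlinarith
  calc 4 * (2 ^ Nat.size (C1 * (k + 1))) ^ 3 ≤ 4 * ((2 * C1 + 1) * (k + 1)) ^ 3 := by
        exact Nat.mul_le_mul_left 4 (Nat.pow_le_pow_left h3 3)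
    _ = 4 * (2 * C1 + 1) ^ 3 * (k + 1) ^ 3 := by ring

/-! ### The degrees of the components of `J` -/

/-- Number of monomials of degree `d` in three variables. -/
def dimH (d : ℕ) : ℕ := (d + 1) * (d + 2) / 2

/-- Dimension of `J` over the small field. -/
def dimJ (d : Fin 8 → ℕ) : ℕ := ∑ i, dimH (d i)

theorem dimH_pair (x : ℕ) : x ^ 2 ≤ dimH (max (x - 1) 1) + dimH (max (x - 2) 1) ∧
    dimH (max (x - 1) 1) + dimH (max (x - 2) 1) ≤ x ^ 2 + 6 := by
  rcases x with _ | _ | _ | x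
  · decide
  · decide
  · decide
  · have h1 : max (x + 1 + 1 + 1 - 1) 1 = x + 2 := by omega
    have h2 : max (x + 1 + 1 + 1 - 2) 1 = x + 1 := by omega
    rw [h1, h2]
    unfold dimH
    have h3 : 2 ∣ (x + 1 + 1) * (x + 1 + 2) := Nat.even_mul_succ_self (x + 2) |>.two_dvd
    have h4 : 2 ∣ (x + 2 + 1) * (x + 2 + 2) := Nat.even_mul_succ_self (x + 3) |>.two_dvd
    have h5 : (x + 1 + 1) * (x + 1 + 2) / 2 * 2 = (x + 1 + 1) * (x + 1 + 2) :=
      Nat.div_mul_cancel h3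
    have h6 : (x + 2 + 1) * (x + 2 + 2) / 2 * 2 = (x + 2 + 1) * (x + 2 + 2) :=
      Nat.div_mul_cancel h4
    constructor <;> nlinarith

/-- The digits of `n` in base `b`. -/
def dig (b n i : ℕ) : ℕ := n / b ^ i % b

/-- The test of the search for a representation as a sum of four squares. -/
def sqTest (M n : ℕ) : Bool :=
  dig (M + 1) n 0 ^ 2 + dig (M + 1) n 1 ^ 2 + dig (M + 1) n 2 ^ 2 + dig (M + 1) n 3 ^ 2 == M

/-- A representation of `M` as a sum of four squares, coded by one number. -/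
def sqCode (M : ℕ) : ℕ := ((List.range ((M + 1) ^ 4)).find? (sqTest M)).getD 0

theorem dig_lt {b : ℕ} (hb : 0 < b) (n i : ℕ) : dig b n i < b := Nat.mod_lt _ hb

theorem exists_sqCode (M : ℕ) : ∃ n < (M + 1) ^ 4, sqTest M n = true := by
  obtain ⟨a, b, c, d, h⟩ := Nat.sum_four_squares M
  have hlt : ∀ x : ℕ, x ^ 2 ≤ M → x < M + 1 := by
    intro x hx
    nlinarith
  have ha : a < M + 1 := hlt a (by nlinarith)
  have hb : b < M + 1 := hlt b (by nlinarith)
  have hc : c < M + 1 := hlt c (by nlinarith)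
  have hd : d < M + 1 := hlt d (by nlinarith)
  set B := M + 1 with hB
  have hB0 : 0 < B := by omega
  refine ⟨a + B * (b + B * (c + B * d)), ?_, ?_⟩
  · have h1 : c + B * d < B ^ 2 := by nlinarith
    have h2 : b + B * (c + B * d) < B ^ 3 := by nlinarith
    nlinarith
  · have e1 : (a + B * (b + B * (c + B * d))) / B = b + B * (c + B * d) := by
      rw [Nat.add_mul_div_left _ _ hB0, Nat.div_eq_of_lt ha, zero_add]
    have e2 : (b + B * (c + B * d)) / B = c + B * d := by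
      rw [Nat.add_mul_div_left _ _ hB0, Nat.div_eq_of_lt hb, zero_add]
    have e3 : (c + B * d) / B = d := by
      rw [Nat.add_mul_div_left _ _ hB0, Nat.div_eq_of_lt hc, zero_add]
    have d0 : dig B (a + B * (b + B * (c + B * d))) 0 = a := by
      simp [dig, Nat.mod_eq_of_lt ha]
    have d1 : dig B (a + B * (b + B * (c + B * d))) 1 = b := by
      rw [dig, pow_one, e1, Nat.add_mul_mod_self_left, Nat.mod_eq_of_lt hb]
    have d2 : dig B (a + B * (b + B * (c + B * d))) 2 = c := by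
      rw [dig, pow_two, ← Nat.div_div_eq_div_mul, e1, e2, Nat.add_mul_mod_self_left,
        Nat.mod_eq_of_lt hc]
    have d3 : dig B (a + B * (b + B * (c + B * d))) 3 = d := by
      rw [dig, pow_succ, pow_two, ← Nat.div_div_eq_div_mul, ← Nat.div_div_eq_div_mul, e1, e2, e3,
        Nat.mod_eq_of_lt hd]
    rw [sqTest, ← hB, d0, d1, d2, d3]
    simp [h]

theorem sqCode_lt (M : ℕ) : sqCode M < (M + 1) ^ 4 := by
  unfold sqCode
  rcases h : (List.range ((M + 1) ^ 4)).find? (sqTest M) with _ | n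
  · simp
  · have := List.mem_of_find?_eq_some h
    simpa using this

theorem sqTest_sqCode (M : ℕ) : sqTest M (sqCode M) = true := by
  unfold sqCode
  rcases h : (List.range ((M + 1) ^ 4)).find? (sqTest M) with _ | n
  · exfalso
    obtain ⟨n, hn, hn'⟩ := exists_sqCode M
    have := List.find?_eq_none.1 h n (by simpa using hn)
    exact this hn'
  · have := List.find?_some h
    simpa using this

/-- The `i`-th number in the representation as a sum of four squares. -/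
def sq (M i : ℕ) : ℕ := dig (M + 1) (sqCode M) i

theorem sq_sum (M : ℕ) : sq M 0 ^ 2 + sq M 1 ^ 2 + sq M 2 ^ 2 + sq M 3 ^ 2 = M := by
  have := sqTest_sqCode M
  simpa [sqTest, sq] using this

/-- The degrees: components `2 i` and `2 i + 1` belong to the `i`-th square. -/
def deg (M i : ℕ) : ℕ := max (sq M (i / 2) - (1 + i % 2)) 1

theorem one_le_deg (M i : ℕ) : 1 ≤ deg M i := le_max_right _ _

theorem sq_sq_le (M i : ℕ) (hi : i < 4) : sq M i ^ 2 ≤ M := by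
  have := sq_sum M
  interval_cases i <;> omega

theorem deg_sq_le (M i : ℕ) (hi : i < 8) : deg M i ^ 2 ≤ M + 1 := by
  have h := sq_sq_le M (i / 2) (by omega)
  unfold deg
  rcases le_total (sq M (i / 2) - (1 + i % 2)) 1 with h1 | h1
  · rw [max_eq_right h1]; omega
  · rw [max_eq_left h1]
    have : (sq M (i / 2) - (1 + i % 2)) ^ 2 ≤ sq M (i / 2) ^ 2 :=
      Nat.pow_le_pow_left (by omega) 2
    omega

/-- The degrees of the eight components for the dimension `≥ M`. -/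
def degs (M : ℕ) : Fin 8 → ℕ := fun i => deg M i

theorem dimJ_degs (M : ℕ) : M ≤ dimJ (degs M) ∧ dimJ (degs M) ≤ M + 24 := by
  have h0 := dimH_pair (sq M 0)
  have h1 := dimH_pair (sq M 1)
  have h2 := dimH_pair (sq M 2)
  have h3 := dimH_pair (sq M 3)
  have hs := sq_sum M
  have e : dimJ (degs M) = (dimH (max (sq M 0 - 1) 1) + dimH (max (sq M 0 - 2) 1)) +
      (dimH (max (sq M 1 - 1) 1) + dimH (max (sq M 1 - 2) 1)) +
      (dimH (max (sq M 2 - 1) 1) + dimH (max (sq M 2 - 2) 1)) +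
      (dimH (max (sq M 3 - 1) 1) + dimH (max (sq M 3 - 2) 1)) := by
    simp only [dimJ, degs, Fin.sum_univ_eight, deg]
    norm_num
    ring
  rw [e]
  omega

theorem one_le_degs (M : ℕ) (i : Fin 8) : 1 ≤ degs M i := one_le_deg M i

theorem degs_sq_le (M : ℕ) (i : Fin 8) : degs M i ^ 2 ≤ M + 1 := deg_sq_le M i i.2

/-! ### The sizes as functions of `k` -/

/-- The number from which the dimension of `J` over the small field is made. -/
def mm (C1 c0 k : ℕ) : ℕ := (k + c0) / fq C1 k + 1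

/-- The degrees of the eight components of `J`. -/
def dd (C1 c0 k : ℕ) : Fin 8 → ℕ := degs (mm C1 c0 k)

/-- The logarithm of the cardinality of `J`. -/
def kap (C1 c0 k : ℕ) : ℕ := fq C1 k * dimJ (dd C1 c0 k)

theorem one_le_dd (C1 c0 k : ℕ) (i : Fin 8) : 1 ≤ dd C1 c0 k i := one_le_degs _ i

theorem dd_sq_le (C1 c0 k : ℕ) (i : Fin 8) : dd C1 c0 k i ^ 2 ≤ k + c0 + 2 := by
  refine (degs_sq_le _ i).trans ?_
  unfold mm
  have := Nat.div_le_self (k + c0) (fq C1 k)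
  omega

theorem le_kap (C1 c0 k : ℕ) : k + c0 ≤ kap C1 c0 k := by
  have h1 := (dimJ_degs (mm C1 c0 k)).1
  have h2 : k + c0 < fq C1 k * mm C1 c0 k := by
    unfold mm
    have hf : 0 < fq C1 k := by have := fq_pos C1 k; omega
    exact Nat.lt_mul_div_succ _ hf
  exact h2.le.trans (Nat.mul_le_mul_left _ h1)

theorem kap_le (C1 c0 k : ℕ) : kap C1 c0 k ≤ k + c0 + 25 * fq C1 k := by
  have h1 := (dimJ_degs (mm C1 c0 k)).2
  have h2 : fq C1 k * mm C1 c0 k ≤ k + c0 + fq C1 k := by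
    unfold mm
    rw [mul_add, mul_one]
    exact Nat.add_le_add_right (Nat.mul_div_le _ _) _
  have h3 : kap C1 c0 k ≤ fq C1 k * (mm C1 c0 k + 24) := Nat.mul_le_mul_left _ h1
  rw [mul_add] at h3
  omega

theorem fq_le_qq (C1 k : ℕ) : fq C1 k ≤ qq C1 k := Nat.lt_two_pow_self.le

theorem two_pow_kap_le (C1 c0 k : ℕ) : 2 ^ kap C1 c0 k ≤ 2 ^ k * 2 ^ c0 * qq C1 k ^ 25 := by
  refine (Nat.pow_le_pow_right (by norm_num) (kap_le C1 c0 k)).trans (le_of_eq ?_)
  rw [qq, ← pow_mul, pow_add, pow_add, mul_comm (fq C1 k)]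

/-- The degrees are small compared with `q`. -/
theorem mul_dd_sq_le {C C1 c0 : ℕ} (h : C * (c0 + 2) ≤ C1) (k : ℕ) (i : Fin 8) :
    C * dd C1 c0 k i ^ 2 ≤ qq C1 k := by
  refine le_trans ?_ (le_qq C1 k)
  calc C * dd C1 c0 k i ^ 2 ≤ C * (k + c0 + 2) := Nat.mul_le_mul_left _ (dd_sq_le C1 c0 k i)
    _ ≤ C * ((c0 + 2) * (k + 1)) := by
        refine Nat.mul_le_mul_left _ ?_
        nlinarith
    _ = C * (c0 + 2) * (k + 1) := by ring
    _ ≤ C1 * (k + 1) := Nat.mul_le_mul_right _ h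

theorem kap_le_mul (C1 c0 : ℕ) : ∃ C, ∀ k, kap C1 c0 k ≤ C * (k + 1) ^ 3 := by
  refine ⟨1 + c0 + 25 * (4 * (2 * C1 + 1) ^ 3), fun k => ?_⟩
  have h1 := kap_le C1 c0 k
  have h2 := (fq_le_qq C1 k).trans (qq_le C1 k)
  have h3 : k + 1 ≤ (k + 1) ^ 3 := Nat.le_self_pow (by norm_num) _
  have h4 : 1 ≤ (k + 1) ^ 3 := Nat.one_le_pow _ _ (by omega)
  have h5 : c0 * 1 ≤ c0 * (k + 1) ^ 3 := Nat.mul_le_mul_left _ h4
  calc kap C1 c0 k ≤ k + c0 + 25 * fq C1 k := h1
    _ ≤ (k + 1) ^ 3 + c0 * (k + 1) ^ 3 + 25 * (4 * (2 * C1 + 1) ^ 3 * (k + 1) ^ 3) := by omega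
    _ = (1 + c0 + 25 * (4 * (2 * C1 + 1) ^ 3)) * (k + 1) ^ 3 := by ring

/-- The number of sites. -/
theorem sites_le (C1 c0 : ℕ) : ∃ C, ∀ k g, g ≤ qq C1 k ^ 8 →
    2 ^ kap C1 c0 k * g ≤ 2 ^ k * (C * (k + 1) ^ 99) := by
  obtain ⟨Q, hQ⟩ : ∃ Q, Q = 4 * (2 * C1 + 1) ^ 3 := ⟨_, rfl⟩
  obtain ⟨P, hP⟩ : ∃ P, P = 2 ^ c0 := ⟨_, rfl⟩
  refine ⟨P * Q ^ 33, fun k g hg => ?_⟩
  have h1 := two_pow_kap_le C1 c0 k
  have h2 : qq C1 k ^ 33 ≤ (Q * (k + 1) ^ 3) ^ 33 := by
    rw [hQ]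
    exact Nat.pow_le_pow_left (qq_le C1 k) 33
  have h3 : (Q * (k + 1) ^ 3) ^ 33 = Q ^ 33 * (k + 1) ^ 99 := by
    rw [mul_pow, ← pow_mul]
  rw [h3] at h2
  rw [← hP] at h1
  clear hQ hP
  generalize qq C1 k = q at h1 h2 hg
  calc 2 ^ kap C1 c0 k * g ≤ (2 ^ k * P * q ^ 25) * q ^ 8 :=
        Nat.mul_le_mul h1 hg
    _ = 2 ^ k * P * q ^ 33 := by rw [mul_assoc, ← pow_add]
    _ ≤ 2 ^ k * P * (Q ^ 33 * (k + 1) ^ 99) :=
        Nat.mul_le_mul_left _ h2
    _ = 2 ^ k * (P * Q ^ 33 * (k + 1) ^ 99) := by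
        simp only [mul_assoc]

/-! ### Quasi-linear lengths -/

/-- `S ≤ 2 ^ k * C * (k + 1) ^ c` with `2 ^ k ≤ C' N` is quasi-linear in `N`. -/
theorem quasi (C c C' : ℕ) : ∃ K, ∀ N k S : ℕ, 2 ≤ N → 2 ^ k ≤ C' * N →
    S ≤ 2 ^ k * (C * (k + 1) ^ c) → S ≤ K * N * Nat.log 2 N ^ K := by
  set D := Nat.size C' with hD
  set K := max c (C' * C * (D + 3) ^ c) with hK
  refine ⟨K, fun N k S hN h2 hS => ?_⟩
  have hlog : 1 ≤ Nat.log 2 N := Nat.log_pos (by norm_num) hN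
  have hN2 : N < 2 ^ (Nat.log 2 N + 1) := Nat.lt_pow_succ_log_self (by norm_num) N
  have hk : k ≤ D + (Nat.log 2 N + 1) := by
    by_contra hk
    push Not at hk
    have h3 : 2 ^ (D + (Nat.log 2 N + 1)) < 2 ^ k := Nat.pow_lt_pow_right (by norm_num) hk
    have h4 : C' < 2 ^ D := Nat.lt_size_self C'
    have h5 : C' * N ≤ 2 ^ D * 2 ^ (Nat.log 2 N + 1) := Nat.mul_le_mul h4.le hN2.le
    rw [← pow_add] at h5
    omega
  have hk' : k + 1 ≤ (D + 3) * Nat.log 2 N := by nlinarith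
  have h6 : (k + 1) ^ c ≤ (D + 3) ^ c * Nat.log 2 N ^ c := by
    rw [← mul_pow]
    exact Nat.pow_le_pow_left hk' c
  calc S ≤ 2 ^ k * (C * (k + 1) ^ c) := hS
    _ ≤ (C' * N) * (C * ((D + 3) ^ c * Nat.log 2 N ^ c)) :=
        Nat.mul_le_mul h2 (Nat.mul_le_mul_left _ h6)
    _ = (C' * C * (D + 3) ^ c) * N * Nat.log 2 N ^ c := by ring
    _ ≤ K * N * Nat.log 2 N ^ K := by
        refine Nat.mul_le_mul (Nat.mul_le_mul_right _ (le_max_right _ _)) ?_
        exact Nat.pow_le_pow_right hlog (le_max_left _ _)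

end Vale.Agent.P330.H247
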