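import Vale.Agent.P330.H247.Size
import Vale.Agent.Lib.PolyTime.Bitwise
import Vale.Agent.Lib.PolyTime.NatArith2
import Vale.Agent.Lib.PolyTime.Lists2
import Vale.Agent.Lib.PolyTime.Lists3

/-!
# Sizes: polynomial time

The functions of `Size.lean` are computable in polynomial time (arguments bounded by a
polynomial).
-/

namespace Vale.Agent.P330.H247

open Function
open Vale.Agent.Lib.PolyTime

variable {A : Set Word} {α : Type*} [Enc α]

/-! ### Bounds that depend on the context -/

theorem pbd_fst {β : Type*} [Enc β] {b : α → ℕ} (hb : PBd b) :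
    PBd (fun p : α × β => b p.1) :=
  PBd.comp (A := (∅ : Set Word)) (b := b) hb PT.fst'

/-! ### Levels -/

theorem find_lvl (B : ℕ) :
    (List.range (B + 1)).find? (fun l => decide (B ≤ 2 * 3 ^ l)) = some (lvl B) := by
  rw [List.find?_range_eq_some]
  refine ⟨by simpa using le_lvl B, by simpa using lvl_lt B, fun j hj => ?_⟩
  have := Nat.find_min (exists_lvl B) hj
  simpa using this

theorem pt_lvl {f : α → ℕ} (hf : PT A f) (hb : PBd f) : PT A (fun a => lvl (f a)) := by
  have h1 : PT A (fun a => (List.range (f a + 1)).find?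
      (fun l => decide (f a ≤ 2 * 3 ^ (min l (f a))))) := by
    refine PT.find? (PT.range (PT.add hf (PT.const 1)) (hb.add (PBd.const 1))) ?_
    refine PT.le (hf.comp PT.fst') (PT.mul (PT.const 2) (PT.pow (PT.const 3)
      (PT.min PT.snd' (hf.comp PT.fst')) ?_))
    exact (pbd_fst hb).mono fun p => min_le_right _ _
  refine (PT.optGetD h1 (PT.const 0)).congr fun a => ?_
  have h2 : (List.range (f a + 1)).find? (fun l => decide (f a ≤ 2 * 3 ^ (min l (f a)))) =
      (List.range (f a + 1)).find? (fun l => decide (f a ≤ 2 * 3 ^ l)) := by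
    rw [List.find?_congr]
    intro l hl
    rw [List.mem_range] at hl
    rw [min_eq_left (by omega)]
  rw [h2, find_lvl]
  rfl

theorem pb_three_pow_lvl {f : α → ℕ} (hb : PBd f) : PBd (fun a => 3 ^ lvl (f a)) :=
  (((PBd.const 3).mul hb).add (PBd.const 2)).mono fun a => by
    have := lvl_le (f a)
    omega

/-! ### The small field -/

section small

variable {C1 : ℕ} {k : α → ℕ} (hk : PT A k) (hb : PBd k)

include hb in
theorem pb_qq : PBd (fun a => qq C1 (k a)) := by
  refine ((PBd.const (4 * (2 * C1 + 1) ^ 3)).mul ((hb.add (PBd.const 1)).pow 3)).mono fun a => ?_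
  exact qq_le C1 (k a)

include hb in
theorem pb_fq : PBd (fun a => fq C1 (k a)) := (pb_qq hb).mono fun a => fq_le_qq C1 (k a)

theorem lq_eq (C1 k : ℕ) : lq C1 k = lvl (Nat.size (C1 * (k + 1))) := rfl

include hk hb in
theorem pt_lq : PT A (fun a => lq C1 (k a)) := by
  refine pt_lvl (f := fun a => Nat.size (C1 * (k a + 1))) ?_ ?_
  · exact PT.natSize (PT.mul (PT.const C1) (PT.add hk (PT.const 1)))
  · refine ((PBd.const C1).mul (hb.add (PBd.const 1))).mono fun a => ?_
    exact Nat.size_le.2 Nat.lt_two_pow_self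

include hb in
theorem pb_three_pow_lq : PBd (fun a => 3 ^ lq C1 (k a)) :=
  (pb_fq (C1 := C1) hb).mono fun a => by unfold H247.fq; omega

include hk hb in
theorem pt_fq : PT A (fun a => fq C1 (k a)) := by
  have hl : PBd (fun a => H247.lq C1 (k a)) :=
    (pb_three_pow_lq (C1 := C1) hb).mono fun a => Nat.lt_pow_self (by norm_num) |>.le
  exact PT.mul (PT.const 2) (PT.pow (PT.const 3) (pt_lq hk hb) hl)

include hk hb in
theorem pt_qq : PT A (fun a => qq C1 (k a)) :=
  PT.pow (PT.const 2) (pt_fq hk hb) (pb_fq hb)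

end small

/-! ### Sums of four squares -/

theorem pt_dig {b n i : α → ℕ} (hb : PT A b) (hn : PT A n) (hi : PT A i) (hib : PBd i) :
    PT A (fun a => dig (b a) (n a) (i a)) :=
  PT.mod (PT.div hn (PT.pow hb hi hib)) hb

theorem pt_sqCode {M : α → ℕ} (hM : PT A M) (hb : PBd M) : PT A (fun a => sqCode (M a)) := by
  have hM1 : PT A (fun a => M a + 1) := PT.add hM (PT.const 1)
  have h1 : PT A (fun a => (List.range ((M a + 1) ^ 4)).find? (sqTest (M a))) := by
    refine PT.find? (PT.range (PT.powConst hM1 4) ((hb.add (PBd.const 1)).pow 4)) ?_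
    have hd : ∀ i : ℕ, PT A (fun p : α × ℕ => H247.dig (M p.1 + 1) p.2 i ^ 2) := fun i =>
      PT.powConst (pt_dig (hM1.comp PT.fst') PT.snd' (PT.const i) (PBd.const i)) 2
    refine (PT.eqNat (PT.add (PT.add (PT.add (hd 0) (hd 1)) (hd 2)) (hd 3))
      (hM.comp PT.fst')).congr fun p => ?_
    rw [sqTest]
    exact (beq_eq_decide _ _).symm
  exact PT.optGetD h1 (PT.const 0)

theorem pt_deg {M i : α → ℕ} (hM : PT A M) (hb : PBd M) (hi : PT A i) (hib : PBd i) :
    PT A (fun a => deg (M a) (i a)) := by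
  have h2 : PT A (fun a => i a / 2) := PT.div hi (PT.const 2)
  refine PT.max (PT.sub (pt_dig (PT.add hM (PT.const 1)) (pt_sqCode hM hb) h2
    (hib.mono fun a => Nat.div_le_self _ _)) (PT.add (PT.const 1) (PT.mod hi (PT.const 2))))
    (PT.const 1)

section dims

variable {C1 c0 : ℕ} {k : α → ℕ} (hk : PT A k) (hb : PBd k)

include hk hb in
theorem pt_mm : PT A (fun a => mm C1 c0 (k a)) :=
  PT.add (PT.div (PT.add hk (PT.const c0)) (pt_fq hk hb)) (PT.const 1)

include hb in
theorem pb_mm : PBd (fun a => mm C1 c0 (k a)) :=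
  ((hb.add (PBd.const c0)).add (PBd.const 1)).mono fun a => by
    unfold H247.mm
    have := Nat.div_le_self (k a + c0) (H247.fq C1 (k a))
    omega

/-- The degrees, with an index in `ℕ`. -/
def ddN (C1 c0 k i : ℕ) : ℕ := deg (mm C1 c0 k) i

theorem dd_eq (C1 c0 k : ℕ) (i : Fin 8) : dd C1 c0 k i = ddN C1 c0 k i := rfl

include hk hb in
theorem pt_ddN {i : α → ℕ} (hi : PT A i) (hib : PBd i) : PT A (fun a => ddN C1 c0 (k a) (i a)) :=
  pt_deg (pt_mm hk hb) (pb_mm hb) hi hib

include hk hb in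
theorem pt_dd (i : Fin 8) : PT A (fun a => dd C1 c0 (k a) i) :=
  pt_ddN hk hb (PT.const _) (PBd.const _)

theorem dd_le (C1 c0 k : ℕ) (i : Fin 8) : dd C1 c0 k i ≤ k + c0 + 2 :=
  (Nat.le_self_pow (by norm_num) _).trans (dd_sq_le C1 c0 k i)

include hb in
theorem pb_dd (i : Fin 8) : PBd (fun a => dd C1 c0 (k a) i) :=
  ((hb.add (PBd.const c0)).add (PBd.const 2)).mono fun a => dd_le C1 c0 (k a) i

theorem pt_dimH {d : α → ℕ} (hd : PT A d) : PT A (fun a => dimH (d a)) :=
  PT.div (PT.mul (PT.add hd (PT.const 1)) (PT.add hd (PT.const 2))) (PT.const 2)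

include hk hb in
theorem pt_dimJ : PT A (fun a => dimJ (dd C1 c0 (k a))) := by
  have h : ∀ i, PT A (fun a => H247.dimH (H247.dd C1 c0 (k a) i)) := fun i =>
    pt_dimH (pt_dd hk hb i)
  refine (PT.add (PT.add (PT.add (PT.add (PT.add (PT.add (PT.add (h 0) (h 1)) (h 2)) (h 3)) (h 4))
    (h 5)) (h 6)) (h 7)).congr fun a => ?_
  rw [H247.dimJ, Fin.sum_univ_eight]

include hk hb in
theorem pt_kap : PT A (fun a => kap C1 c0 (k a)) := PT.mul (pt_fq hk hb) (pt_dimJ hk hb)

include hb in
theorem pb_kap : PBd (fun a => kap C1 c0 (k a)) :=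
  ((hb.add (PBd.const c0)).add ((PBd.const 25).mul (pb_fq (C1 := C1) hb))).mono fun a =>
    kap_le C1 c0 (k a)

end dims

/-- The cardinality of `J` is bounded by a polynomial if `2 ^ k` is. -/
theorem pb_two_pow_kap {C1 c0 : ℕ} {k : α → ℕ} (hb : PBd (fun a => 2 ^ k a)) :
    PBd (fun a => 2 ^ kap C1 c0 (k a)) := by
  have hk : PBd k := hb.mono fun a => Nat.lt_two_pow_self.le
  refine ((hb.mul (PBd.const (2 ^ c0))).mul ((pb_qq (C1 := C1) hk).pow 25)).mono fun a => ?_
  exact two_pow_kap_le C1 c0 (k a)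

end Vale.Agent.P330.H247
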